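import Vale.Agent.P365.J376.Bridge

/-!
# P365 T1.5, Z7b: derivative of the flux `Sf` along a path of absorption profiles

`Sf_eq_inv`, `hasDerivAt_Sf`, `hasDerivAt_log_Sf`, `abs_slope_le` (relative slope at most
`Wm / (b + s Wm)`).
-/

set_option linter.all false

namespace Vale.Agent.P365.Z0.H550

open P365L P365O P365T1 Matrix Complex MeasureTheory Filter Topology Set
open Vale.Agent.P365.J376
open scoped ComplexConjugate

variable {ι : Type*} [Fintype ι] [DecidableEq ι] {A : Matrix ι ι ℝ}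

/-- `Sf = - Im (1 / G_xx)` -/
theorem Sf_eq_inv (hA : A.IsSymm) {W : ι → ℂ} (hW : ∀ x, (W x).im < 0) (x : ι) :
    Sf A W x = -((Gr A W x x)⁻¹).im := by
  have h1 := sg_im hA hW x
  rw [sg, Complex.sub_im] at h1
  linarith

/-- derivative of `Sf` along an imaginary path `W = a - i h(s)` -/
theorem hasDerivAt_Sf (hA : A.IsSymm) {a : ι → ℝ} {h : ℝ → ι → ℝ} {h' : ι → ℝ} {s₀ : ℝ}
    (hd : ∀ x, HasDerivAt (fun s => h s x) (h' x) s₀) (hpos : ∀ᶠ s in 𝓝 s₀, ∀ x, 0 < h s x)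
    (x : ι) :
    HasDerivAt (fun s => Sf A (Wp a (h s)) x)
      (∑ z, h' z * ((gw A (Wp a (h s₀)) x z) ^ 2).re) s₀ := by
  have hpos0 : ∀ x, 0 < h s₀ x := hpos.self_of_nhds
  have hneg : ∀ x, (Wp a (h s₀) x).im < 0 := fun x => by
    rw [J376.Wp_im]
    linarith [hpos0 x]
  have hWd : ∀ x, HasDerivAt (fun s => Wp a (h s) x) (-((h' x : ℂ) * I)) s₀ := by
    intro x
    have h1 : HasDerivAt (fun s => (h s x : ℂ)) (h' x : ℂ) s₀ := (hd x).ofReal_comp
    have h2 := (h1.mul_const I).const_sub (a x : ℂ)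
    exact h2
  set G := Gr A (Wp a (h s₀)) with hG
  have h0 : G x x ≠ 0 := Gr_self_ne_zero hA hneg x
  have h1 := hasDerivAt_Gr hA hWd hneg x x
  rw [← hG] at h1
  have h2 : HasDerivAt (fun s => (Gr A (Wp a (h s)) x x)⁻¹)
      (-(∑ z, G x z * (-(-((h' z : ℂ) * I))) * G z x) / (G x x) ^ 2) s₀ := h1.fun_inv h0
  have h3 : HasDerivAt (fun s => -((Gr A (Wp a (h s)) x x)⁻¹).im)
      (-(-(∑ z, G x z * (-(-((h' z : ℂ) * I))) * G z x) / (G x x) ^ 2).im) s₀ := by
    have h4 := (Complex.imCLM.hasFDerivAt.comp_hasDerivAt s₀ h2).neg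
    exact h4
  have e1 : (-(-(∑ z, G x z * (-(-((h' z : ℂ) * I))) * G z x) / (G x x) ^ 2).im) =
      ∑ z, h' z * ((gw A (Wp a (h s₀)) x z) ^ 2).re := by
    have e2 : -(∑ z, G x z * (-(-((h' z : ℂ) * I))) * G z x) / (G x x) ^ 2 =
        ∑ z, ((h' z : ℝ) : ℂ) * (-(I * (gw A (Wp a (h s₀)) x z) ^ 2)) := by
      rw [neg_div, Finset.sum_div, ← Finset.sum_neg_distrib]
      refine Finset.sum_congr rfl fun z _ => ?_
      rw [gw, ← hG, show G x z = G z x from Gr_symm hA x z]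
      field_simp
    rw [e2, Complex.im_sum, ← Finset.sum_neg_distrib]
    refine Finset.sum_congr rfl fun z _ => ?_
    rw [Complex.im_ofReal_mul, Complex.neg_im, Complex.I_mul_im]
    ring
  rw [e1] at h3
  refine h3.congr_of_eventuallyEq ?_
  filter_upwards [hpos] with s hs
  exact Sf_eq_inv hA (fun x => by rw [J376.Wp_im]; linarith [hs x]) x

/-- affine profile, potential form -/
theorem hasDerivAt_Sf_WV (hA : A.IsSymm) (E : ℝ) {b Wm : ℝ} (hb : 0 < b) {u w : ι → ℝ}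
    (hub : ∀ x, b ≤ u x) (hw0 : ∀ x, 0 ≤ w x) (hw1 : ∀ x, w x ≤ Wm) {s : ℝ} (hs : 0 ≤ s)
    (v : ι → ℝ) (x : ι) :
    HasDerivAt (fun s => Sf A (WV E (fun x => u x + s * w x) v) x)
      (∑ z, w z * ((gw A (WV E (fun x => u x + s * w x) v) x z) ^ 2).re) s := by
  have hWm : 0 ≤ Wm := (hw0 x).trans (hw1 x)
  have hev : ∀ᶠ t in 𝓝 s, ∀ x, 0 < u x + t * w x := by
    have h1 : ∀ᶠ t in 𝓝 s, -(b / (Wm + 1)) < t :=
      lt_mem_nhds (by have : 0 < b / (Wm + 1) := by positivity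
                      linarith)
    filter_upwards [h1] with t ht y
    have h2 := hub y
    have h3 := hw0 y
    have h4 := hw1 y
    have h5 : -(b / (Wm + 1)) * w y ≤ t * w y := mul_le_mul_of_nonneg_right ht.le h3
    have h6 : b / (Wm + 1) * w y < b := by
      rw [div_mul_eq_mul_div, div_lt_iff₀ (by linarith)]
      nlinarith
    nlinarith
  have h := hasDerivAt_Sf hA (a := fun x => v x - E) (h := fun s x => u x + s * w x) (h' := w)
    (s₀ := s) (fun y => by
      simpa using ((hasDerivAt_id s).mul_const (w y)).const_add (u y)) hev x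
  simpa only [WV_eq_Wp] using h

/-- affine profile: derivative of `log Sf` -/
theorem hasDerivAt_log_Sf (hA : A.IsSymm) (E : ℝ) {b Wm : ℝ} (hb : 0 < b) {u w : ι → ℝ}
    (hub : ∀ x, b ≤ u x) (hw0 : ∀ x, 0 ≤ w x) (hw1 : ∀ x, w x ≤ Wm) {s : ℝ} (hs : 0 ≤ s)
    (v : ι → ℝ) (x : ι) :
    HasDerivAt (fun s => Real.log (Sf A (WV E (fun x => u x + s * w x) v) x))
      ((∑ z, w z * ((gw A (WV E (fun x => u x + s * w x) v) x z) ^ 2).re) /
        Sf A (WV E (fun x => u x + s * w x) v) x) s := by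
  have hpos : ∀ y, 0 < u y + s * w y := fun y => by
    have := hub y
    have := mul_nonneg hs (hw0 y)
    linarith
  exact (hasDerivAt_Sf_WV hA E hb hub hw0 hw1 hs v x).log (Sf_pos hA (WV_neg hpos v) x).ne'

/-- the relative slope -/
theorem abs_slope_le (hA : A.IsSymm) (E : ℝ) {b Wm : ℝ} (hb : 0 < b) (hWm : 0 ≤ Wm)
    {u w : ι → ℝ} (hub : ∀ x, b ≤ u x) (hw0 : ∀ x, 0 ≤ w x) (hw1 : ∀ x, w x ≤ Wm) {s : ℝ}
    (hs : 0 ≤ s) (v : ι → ℝ) (x : ι) :
    |(∑ z, w z * ((gw A (WV E (fun x => u x + s * w x) v) x z) ^ 2).re) /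
        Sf A (WV E (fun x => u x + s * w x) v) x| ≤ Wm / (b + s * Wm) := by
  have hpos : ∀ y, 0 < u y + s * w y := fun y => by
    have := hub y
    have := mul_nonneg hs (hw0 y)
    linarith
  set W := WV E (fun x => u x + s * w x) v with hW
  have hneg : ∀ y, (W y).im < 0 := WV_neg hpos v
  have him : ∀ y, -(W y).im = u y + s * w y := fun y => by
    rw [hW, WV_eq_Wp, J376.Wp_im, neg_neg]
  have hS := Sf_pos hA hneg x
  have hden : 0 < b + s * Wm := by
    have := mul_nonneg hs hWm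
    linarith
  rw [abs_div, abs_of_pos hS, div_le_iff₀ hS]
  calc |∑ z, w z * ((gw A W x z) ^ 2).re| ≤ ∑ z, |w z * ((gw A W x z) ^ 2).re| :=
        Finset.abs_sum_le_sum_abs _ _
    _ ≤ ∑ z, Wm / (b + s * Wm) * ((-(W z).im) * ‖gw A W x z‖ ^ 2) := by
        refine Finset.sum_le_sum fun z _ => ?_
        rw [abs_mul, abs_of_nonneg (hw0 z), him, ← mul_assoc]
        have h1 : |((gw A W x z) ^ 2).re| ≤ ‖gw A W x z‖ ^ 2 := by
          rw [← norm_pow]
          exact Complex.abs_re_le_norm _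
        refine mul_le_mul ?_ h1 (abs_nonneg _) ?_
        · rw [div_mul_eq_mul_div, le_div_iff₀ hden]
          have h2 := hub z
          have h3 := hw0 z
          have h4 := hw1 z
          have h5 : w z * b ≤ Wm * u z := mul_le_mul h4 h2 hb.le hWm
          nlinarith
        · have := (hpos z).le
          positivity
    _ = Wm / (b + s * Wm) * Sf A W x := by
        rw [Sf, Finset.mul_sum]

end Vale.Agent.P365.Z0.H550
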