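import Vale.Agent.P365.Z0.H550.Up
import Vale.Agent.P365.Z0.IntegDefs

/-!
# P365 T1.5, Z7b (ii): end of the last stage.

`log_Sf_sub_le` : `|log Sf(u + s₁ w) - log Sf(u)| ≤ log (1 + s₁ Wm / b)`, and the same for `LT`.
-/

set_option linter.all false

namespace Vale.Agent.P365.Z0.H550

open P365L P365O P365T1 Matrix Complex MeasureTheory Filter Topology Set
open Vale.Agent.P365.J376 Vale.Agent.P365.Z0
open scoped ComplexConjugate ENNReal

section path

variable {ι : Type*} [Fintype ι] [DecidableEq ι] {A : Matrix ι ι ℝ}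

/-- **pathwise end of the stage** -/
theorem abs_log_Sf_sub_le (hA : A.IsSymm) (E : ℝ) {b Wm : ℝ} (hb : 0 < b) (hWm : 0 ≤ Wm)
    {u w : ι → ℝ} (hub : ∀ x, b ≤ u x) (hw0 : ∀ x, 0 ≤ w x) (hw1 : ∀ x, w x ≤ Wm) {s₁ : ℝ}
    (hs : 0 ≤ s₁) (v : ι → ℝ) (x : ι) :
    |Real.log (Sf A (WV E (fun x => u x + s₁ * w x) v) x) - Real.log (Sf A (WV E u v) x)| ≤
      Real.log (1 + s₁ * Wm / b) := by
  set F : ℝ → ℝ := fun s => Real.log (Sf A (WV E (fun x => u x + s * w x) v) x) with hF
  set F' : ℝ → ℝ := fun s =>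
    (∑ z, w z * ((gw A (WV E (fun x => u x + s * w x) v) x z) ^ 2).re) /
        Sf A (WV E (fun x => u x + s * w x) v) x with hF'
  have hd : ∀ s, 0 ≤ s → HasDerivAt F (F' s) s := fun s hs =>
    hasDerivAt_log_Sf hA E hb hub hw0 hw1 hs v x
  have habs : ∀ s, 0 ≤ s → |F' s| ≤ Wm / (b + s * Wm) := fun s hs =>
    abs_slope_le hA E hb hWm hub hw0 hw1 hs v x
  have hden : ∀ s, 0 ≤ s → 0 < b + s * Wm := fun s hs => by
    have := mul_nonneg hs hWm
    linarith
  set L : ℝ → ℝ := fun s => Real.log (b + s * Wm) with hL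
  have hdL : ∀ s, 0 ≤ s → HasDerivAt L (Wm / (b + s * Wm)) s := by
    intro s hs
    have h1 : HasDerivAt (fun s : ℝ => b + s * Wm) Wm s := by
      simpa using ((hasDerivAt_id s).mul_const Wm).const_add b
    exact h1.log (hden s hs).ne'
  have hmono : MonotoneOn (fun s => F s + L s) (Icc 0 s₁) := by
    refine monotoneOn_of_deriv_nonneg (convex_Icc _ _) ?_ ?_ ?_
    · exact fun s hs => ((hd s hs.1).add (hdL s hs.1)).continuousAt.continuousWithinAt
    · intro s hs
      rw [interior_Icc] at hs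
      exact ((hd s hs.1.le).add (hdL s hs.1.le)).differentiableAt.differentiableWithinAt
    · intro s hs
      rw [interior_Icc] at hs
      have h2 := ((hd s hs.1.le).add (hdL s hs.1.le)).deriv
      have h3 := habs s hs.1.le
      rw [abs_le] at h3
      have h4 : deriv (fun s => F s + L s) s = F' s + Wm / (b + s * Wm) := h2
      rw [h4]
      linarith [h3.1]
  have hanti : MonotoneOn (fun s => L s - F s) (Icc 0 s₁) := by
    refine monotoneOn_of_deriv_nonneg (convex_Icc _ _) ?_ ?_ ?_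
    · exact fun s hs => ((hdL s hs.1).sub (hd s hs.1)).continuousAt.continuousWithinAt
    · intro s hs
      rw [interior_Icc] at hs
      exact ((hdL s hs.1.le).sub (hd s hs.1.le)).differentiableAt.differentiableWithinAt
    · intro s hs
      rw [interior_Icc] at hs
      have h2 := ((hdL s hs.1.le).sub (hd s hs.1.le)).deriv
      have h3 := habs s hs.1.le
      rw [abs_le] at h3
      have h4 : deriv (fun s => L s - F s) s = Wm / (b + s * Wm) - F' s := h2
      rw [h4]
      linarith [h3.2]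
  have hm0 : (0 : ℝ) ∈ Icc 0 s₁ := ⟨le_rfl, hs⟩
  have hm1 : s₁ ∈ Icc 0 s₁ := ⟨hs, le_rfl⟩
  have h5 := hmono hm0 hm1 hs
  have h6 := hanti hm0 hm1 hs
  have e0 : F 0 = Real.log (Sf A (WV E u v) x) := by
    simp only [hF]
    simp
  have eL : Real.log (1 + s₁ * Wm / b) = L s₁ - L 0 := by
    simp only [hL]
    rw [zero_mul, add_zero, ← Real.log_div (hden s₁ hs).ne' hb.ne']
    congr 1
    field_simp
  simp only at h5 h6
  rw [eL, ← e0, abs_le]
  show -(L s₁ - L 0) ≤ F s₁ - F 0 ∧ F s₁ - F 0 ≤ L s₁ - L 0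
  constructor <;> linarith

end path

section LT

variable {ι : Type*} [Fintype ι] [DecidableEq ι] {A : Matrix ι ι ℝ}
  {Λ : Type*} [Fintype Λ] {p : Λ → ℝ} {ν : Λ → Measure ℝ} {E : ℝ}

/-- comparison of two averages with a constant per trap -/
theorem LT_le_of_le (hA : A.IsSymm) [∀ k, IsProbabilityMeasure (ν k)] (hp : ∀ k, 0 ≤ p k)
    {T : (ι → Λ) → Finset ι} {e e' : (ι → Λ) → ι → ℝ} (he : ∀ l x, 0 < e l x)
    (he' : ∀ l x, 0 < e' l x) {c : ℝ}
    (h : ∀ l v, ∀ x ∈ T l, Real.log (Sf A (WV E (e l) v) x) ≤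
      Real.log (Sf A (WV E (e' l) v) x) + c) :
    LT A p ν E T e ≤ LT A p ν E T e' + c * nT p T := by
  have h1 : ∀ l : ι → Λ, Ex (fun x => ν (l x)) E (e l)
      (fun W => ∑ x ∈ T l, Real.log (Sf A W x)) ≤
      Ex (fun x => ν (l x)) E (e' l) (fun W => ∑ x ∈ T l, Real.log (Sf A W x)) +
        c * ((T l).card : ℝ) := by
    intro l
    unfold Ex
    have h2 : ∫ v, (∑ x ∈ T l, Real.log (Sf A (WV E (e l) v) x)) ∂(Measure.pi fun x => ν (l x)) ≤
        ∫ v, ((∑ x ∈ T l, Real.log (Sf A (WV E (e' l) v) x)) + c * ((T l).card : ℝ))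
          ∂(Measure.pi fun x => ν (l x)) := by
      refine integral_mono (integrable_sum_log_Sf hA _ E (he l) (T l))
        ((integrable_sum_log_Sf hA _ E (he' l) (T l)).add (integrable_const _)) fun v => ?_
      show (∑ x ∈ T l, Real.log (Sf A (WV E (e l) v) x)) ≤
        (∑ x ∈ T l, Real.log (Sf A (WV E (e' l) v) x)) + c * ((T l).card : ℝ)
      calc ∑ x ∈ T l, Real.log (Sf A (WV E (e l) v) x)
          ≤ ∑ x ∈ T l, (Real.log (Sf A (WV E (e' l) v) x) + c) :=
            Finset.sum_le_sum fun x hx => h l v x hx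
        _ = _ := by
            rw [Finset.sum_add_distrib, Finset.sum_const, nsmul_eq_mul]
            ring
    rw [integral_add (integrable_sum_log_Sf hA _ E (he' l) (T l)) (integrable_const _),
      integral_const, probReal_univ, one_smul] at h2
    exact h2
  unfold LT AvG nT
  rw [Finset.mul_sum, ← Finset.sum_add_distrib]
  refine Finset.sum_le_sum fun l _ => ?_
  have h3 := mul_le_mul_of_nonneg_left (h1 l) (Finset.prod_nonneg fun x _ => hp (l x) :
    (0 : ℝ) ≤ ∏ x, p (l x))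
  refine h3.trans (le_of_eq ?_)
  ring

/-- **(ii) END**: from the profile `u + s₁ w` to the profile `u` -/
theorem LT_end (hA : A.IsSymm) [∀ k, IsProbabilityMeasure (ν k)] (hp : ∀ k, 0 ≤ p k)
    {T : (ι → Λ) → Finset ι} {b Wm : ℝ} (hb : 0 < b) (hWm : 0 ≤ Wm)
    {u w : (ι → Λ) → ι → ℝ} (hub : ∀ l x, b ≤ u l x) (hw0 : ∀ l x, 0 ≤ w l x)
    (hw1 : ∀ l x, w l x ≤ Wm) {s₁ : ℝ} (hs : 0 ≤ s₁) :
    LT A p ν E T u ≤ LT A p ν E T (fun l x => u l x + s₁ * w l x) +
      Real.log (1 + s₁ * Wm / b) * nT p T := by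
  refine LT_le_of_le hA hp (fun l x => hb.trans_le (hub l x)) (fun l x => ?_) fun l v x _ => ?_
  · have := hub l x
    have := mul_nonneg hs (hw0 l x)
    linarith
  · have h := abs_log_Sf_sub_le hA E hb hWm (hub l) (hw0 l) (hw1 l) hs v x
    rw [abs_le] at h
    linarith [h.1]

end LT

end Vale.Agent.P365.Z0.H550
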