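import Vale.Agent.P365.Z0.H550.End

/-!
# P365 T1.5, Z7b (iv): start of the last stage.

`integral_Sf_le` : `∫ Sf_x ≤ em + Δ² π D` (densities of the neighbours of `x` at most `D`);
`LT_start`       : `LT ≤ log (em + Δ² π D) · nT`.
-/

set_option linter.all false

namespace Vale.Agent.P365.Z0.H550

open P365L P365O P365T1 Matrix Complex MeasureTheory Filter Topology Set
open Vale.Agent.P365.J376 Vale.Agent.P365.Z0
open scoped ComplexConjugate ENNReal

variable {ι : Type*} [Fintype ι] [DecidableEq ι] {A : Matrix ι ι ℝ}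

/-- `∫ Im G_zz ≤ π D`, Bochner form -/
theorem integral_mm_le (hA : A.IsSymm) (E : ℝ) {e : ι → ℝ} (he : ∀ i, 0 < e i)
    (m : ι → Measure ℝ) [∀ i, IsProbabilityMeasure (m i)] (z : ι) {D : ℝ} (hD0 : 0 ≤ D)
    (hD : DensLe D (m z)) :
    ∫ v, mm A (WV E e v) z ∂(Measure.pi m) ≤ Real.pi * D := by
  have h1 : 0 ≤ᵐ[Measure.pi m] fun v => mm A (WV E e v) z :=
    Filter.Eventually.of_forall fun v => (mm_pos hA (WV_neg he v) z).le
  have h2 : AEStronglyMeasurable (fun v => mm A (WV E e v) z) (Measure.pi m) := by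
    have h3 : Measurable fun v : ι → ℝ => (Gr A (WV E e v) z z).im :=
      Complex.measurable_im.comp (Res.measurable_GrWV z z)
    exact h3.aestronglyMeasurable
  rw [integral_eq_lintegral_of_nonneg_ae h1 h2]
  exact ENNReal.toReal_le_of_le_ofReal (by have := Real.pi_pos; positivity)
    (lint_mm_le hA he m z hD)

theorem integrable_Gi_im (hA : A.IsSymm) (m : Measure (ι → ℝ)) [IsFiniteMeasure m] (E : ℝ)
    {e : ι → ℝ} (he : ∀ x, 0 < e x) (x y : ι) :
    Integrable (fun v => (Gi A (WV E e v) x y y).im) m := by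
  haveI : Nonempty ι := ⟨x⟩
  obtain ⟨x₀, hx₀⟩ := Finite.exists_min e
  refine Integrable.of_bound
    (Complex.measurable_im.comp (Res.measurable_GiWV x y y)).aestronglyMeasurable (1 / e x₀)
    (Filter.Eventually.of_forall fun v => ?_)
  have hW := WV_neg (E := E) he v
  rw [Real.norm_eq_abs, abs_of_nonneg (Gi_im_nonneg hA hW x y)]
  refine (Gi_im_le_mm hA hW x y).trans ?_
  rw [mm]
  refine (Complex.im_le_norm _).trans (norm_Gr_le (Res.dl_symm hA x) (he x₀) (fun z => ?_) y y)
  rw [WV_eq_Wp, J376.Wp_im]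
  linarith [hx₀ z]

/-- Wegner bound for the Green function with `x` removed -/
theorem integral_Gi_im_le (hA : A.IsSymm) (E : ℝ) {e : ι → ℝ} (he : ∀ i, 0 < e i)
    (m : ι → Measure ℝ) [∀ i, IsProbabilityMeasure (m i)] (x y : ι) {D : ℝ} (hD0 : 0 ≤ D)
    (hD : DensLe D (m y)) :
    ∫ v, (Gi A (WV E e v) x y y).im ∂(Measure.pi m) ≤ Real.pi * D := by
  have hint : Integrable (fun v => mm (Res.dl A x) (WV E e v) y) (Measure.pi m) := by
    haveI : Nonempty ι := ⟨x⟩
    obtain ⟨x₀, hx₀⟩ := Finite.exists_min e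
    have h3 : Measurable fun v : ι → ℝ => (Gr (Res.dl A x) (WV E e v) y y).im :=
      Complex.measurable_im.comp (Res.measurable_GrWV y y)
    refine Integrable.of_bound h3.aestronglyMeasurable (1 / e x₀)
      (Filter.Eventually.of_forall fun v => ?_)
    rw [Real.norm_eq_abs]
    refine (Complex.abs_im_le_norm _).trans
      (norm_Gr_le (Res.dl_symm hA x) (he x₀) (fun z => ?_) y y)
    rw [WV_eq_Wp, J376.Wp_im]
    linarith [hx₀ z]
  refine (integral_mono (integrable_Gi_im hA _ E he x y) hint fun v =>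
    Gi_im_le_mm hA (WV_neg he v) x y).trans ?_
  exact integral_mm_le (Res.dl_symm hA x) E he m y hD0 hD

/-- **expected flux of a site** -/
theorem integral_Sf_le (hA : A.IsSymm) (E : ℝ) {e : ι → ℝ} (he : ∀ i, 0 < e i)
    (m : ι → Measure ℝ) [∀ i, IsProbabilityMeasure (m i)] (x : ι) {em Δ D : ℝ}
    (hem : e x ≤ em) (hΔ : ∑ y, |A x y| ≤ Δ) (hD0 : 0 ≤ D)
    (hD : ∀ y, A x y ≠ 0 → DensLe D (m y)) :
    ∫ v, Sf A (WV E e v) x ∂(Measure.pi m) ≤ em + Δ ^ 2 * (Real.pi * D) := by
  have hpi := Real.pi_pos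
  have hΔ0 : 0 ≤ Δ := (Finset.sum_nonneg fun y _ => abs_nonneg _).trans hΔ
  have hI : Integrable (fun v => em + Δ * ∑ y, |A x y| * (Gi A (WV E e v) x y y).im)
      (Measure.pi m) :=
    (integrable_const _).add ((integrable_finset_sum _ fun y _ =>
      (integrable_Gi_im hA _ E he x y).const_mul _).const_mul _)
  calc ∫ v, Sf A (WV E e v) x ∂(Measure.pi m)
      ≤ ∫ v, (em + Δ * ∑ y, |A x y| * (Gi A (WV E e v) x y y).im) ∂(Measure.pi m) := by
        refine integral_mono (integrable_Sf hA _ E he x) hI fun v => ?_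
        refine (Sf_le hA (WV_neg he v) x hΔ).trans (add_le_add ?_ le_rfl)
        rw [WV_eq_Wp, J376.Wp_im, neg_neg]
        exact hem
    _ = em + Δ * ∑ y, |A x y| * ∫ v, (Gi A (WV E e v) x y y).im ∂(Measure.pi m) := by
        rw [integral_add (integrable_const _) ((integrable_finset_sum _ fun y _ =>
          (integrable_Gi_im hA _ E he x y).const_mul _).const_mul _), integral_const,
          probReal_univ, one_smul, integral_const_mul, integral_finset_sum _ fun y _ =>
          (integrable_Gi_im hA _ E he x y).const_mul _]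
        simp only [integral_const_mul]
    _ ≤ em + Δ * ∑ y, |A x y| * (Real.pi * D) := by
        refine add_le_add le_rfl (mul_le_mul_of_nonneg_left (Finset.sum_le_sum fun y _ => ?_) hΔ0)
        by_cases h : A x y = 0
        · simp [h]
        · exact mul_le_mul_of_nonneg_left (integral_Gi_im_le hA E he m x y hD0 (hD y h))
            (abs_nonneg _)
    _ ≤ em + Δ * (Δ * (Real.pi * D)) := by
        rw [← Finset.sum_mul]
        gcongr
    _ = _ := by ring

/-- expected logarithm of the flux -/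
theorem integral_log_Sf_le (hA : A.IsSymm) (E : ℝ) {e : ι → ℝ} (he : ∀ i, 0 < e i)
    (m : ι → Measure ℝ) [∀ i, IsProbabilityMeasure (m i)] (x : ι) {em Δ D : ℝ}
    (hem : e x ≤ em) (hΔ : ∑ y, |A x y| ≤ Δ) (hD0 : 0 ≤ D)
    (hD : ∀ y, A x y ≠ 0 → DensLe D (m y)) :
    ∫ v, Real.log (Sf A (WV E e v) x) ∂(Measure.pi m) ≤
      Real.log (em + Δ ^ 2 * (Real.pi * D)) := by
  have hpi := Real.pi_pos
  set K := em + Δ ^ 2 * (Real.pi * D) with hK
  have hK0 : 0 < K := by
    have h1 : 0 ≤ Δ ^ 2 * (Real.pi * D) := by positivity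
    have := he x
    linarith
  have h1 := integral_Sf_le hA E he m x hem hΔ hD0 hD
  rw [← hK] at h1
  calc ∫ v, Real.log (Sf A (WV E e v) x) ∂(Measure.pi m)
      ≤ ∫ v, ((Real.log K - 1) + K⁻¹ * Sf A (WV E e v) x) ∂(Measure.pi m) := by
        refine integral_mono (integrable_log_Sf hA _ E he x)
          ((integrable_const _).add ((integrable_Sf hA _ E he x).const_mul _)) fun v => ?_
        show Real.log (Sf A (WV E e v) x) ≤ (Real.log K - 1) + K⁻¹ * Sf A (WV E e v) x
        have hS := Sf_pos hA (WV_neg (E := E) he v) x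
        have h2 := Real.log_le_sub_one_of_pos (show 0 < Sf A (WV E e v) x / K by positivity)
        rw [Real.log_div hS.ne' hK0.ne', div_eq_inv_mul] at h2
        linarith
    _ = (Real.log K - 1) + K⁻¹ * ∫ v, Sf A (WV E e v) x ∂(Measure.pi m) := by
        rw [integral_add (integrable_const _) ((integrable_Sf hA _ E he x).const_mul _),
          integral_const, probReal_univ, one_smul, integral_const_mul]
    _ ≤ (Real.log K - 1) + K⁻¹ * K := by gcongr
    _ = Real.log K := by
        rw [inv_mul_cancel₀ hK0.ne']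
        ring

section LT

variable {Λ : Type*} [Fintype Λ] {p : Λ → ℝ} {ν : Λ → Measure ℝ} {E : ℝ}

/-- **(iv) START** -/
theorem LT_start (hA : A.IsSymm) [∀ k, IsProbabilityMeasure (ν k)] (hp : ∀ k, 0 ≤ p k)
    {T : (ι → Λ) → Finset ι} {e : (ι → Λ) → ι → ℝ} (he : ∀ l x, 0 < e l x) {em Δ D : ℝ}
    (hem : ∀ l, ∀ x ∈ T l, e l x ≤ em) (hΔ : ∀ x, ∑ y, |A x y| ≤ Δ) (hD0 : 0 ≤ D)
    (hD : ∀ l, ∀ x ∈ T l, ∀ y, A x y ≠ 0 → DensLe D (ν (l y))) :
    LT A p ν E T e ≤ Real.log (em + Δ ^ 2 * (Real.pi * D)) * nT p T := by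
  unfold LT AvG nT
  rw [Finset.mul_sum]
  refine Finset.sum_le_sum fun l _ => ?_
  have h1 : Ex (fun x => ν (l x)) E (e l) (fun W => ∑ x ∈ T l, Real.log (Sf A W x)) ≤
      Real.log (em + Δ ^ 2 * (Real.pi * D)) * ((T l).card : ℝ) := by
    unfold Ex
    rw [integral_finset_sum _ fun x _ => integrable_log_Sf hA _ E (he l) x]
    calc ∑ x ∈ T l, ∫ v, Real.log (Sf A (WV E (e l) v) x) ∂(Measure.pi fun x => ν (l x))
        ≤ ∑ x ∈ T l, Real.log (em + Δ ^ 2 * (Real.pi * D)) :=
          Finset.sum_le_sum fun x hx => integral_log_Sf_le hA E (he l) _ x (hem l x hx) (hΔ x)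
            hD0 (hD l x hx)
      _ = _ := by
          rw [Finset.sum_const, nsmul_eq_mul]
          ring
  have h3 := mul_le_mul_of_nonneg_left h1 (Finset.prod_nonneg fun x _ => hp (l x) :
    (0 : ℝ) ≤ ∏ x, p (l x))
  refine h3.trans (le_of_eq ?_)
  ring

end LT

end Vale.Agent.P365.Z0.H550
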