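import Vale.Agent.P365.Z0.H550.DSf
import Vale.Agent.P365.T1.Res320
import Vale.Agent.P365.T1.FarT16

/-!
# P365 T1.5, Z7b: upper bounds of the flux `Sf`

`Sf_le` : `Sf_x ≤ e_x + Δ ∑_y |A_xy| Im Gi^x_yy`, `Sf_le_const`, integrability of `log Sf`,
`lint_Gi_le` : `∫ Im Gi^x_yy ≤ π D`.
-/

set_option linter.all false

namespace Vale.Agent.P365.Z0.H550

open P365L P365O P365T1 Matrix Complex MeasureTheory Filter Topology Set
open Vale.Agent.P365.J376
open scoped ComplexConjugate ENNReal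

variable {ι : Type*} [Fintype ι] [DecidableEq ι] {A : Matrix ι ι ℝ}

/-- the wave of `x` in terms of the Green function with `x` removed -/
theorem gw_eq_Gi (hA : A.IsSymm) {W : ι → ℂ} (hW : ∀ x, (W x).im < 0) (x a : ι) :
    gw A W x a = (if a = x then 1 else 0) - ∑ y, Gi A W x a y * (A x y : ℂ) := by
  have h0 := Gr_self_ne_zero hA hW x
  have h1 := Kmat_mulVec_Gr hA hW a x
  rw [Kmat_mulVec] at h1
  have h2 := Kmat_mulVec_Gr hA hW x x
  rw [Kmat_mulVec, if_pos rfl] at h2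
  have e1 : ∑ y, Gi A W x a y * (A x y : ℂ) =
      ∑ y, (A x y : ℂ) * Gr A W y a - gw A W x a * ∑ y, (A x y : ℂ) * Gr A W y x := by
    rw [Finset.mul_sum, ← Finset.sum_sub_distrib]
    refine Finset.sum_congr rfl fun y _ => ?_
    rw [Gi, Gr_symm hA a y, Gr_symm hA x y]
    ring
  have e2 : ∑ y, (A x y : ℂ) * Gr A W y a = (if x = a then 1 else 0) - W x * Gr A W x a := by
    rw [← h1]; ring
  have e3 : ∑ y, (A x y : ℂ) * Gr A W y x = 1 - W x * Gr A W x x := by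
    rw [← h2]; ring
  rw [e1, e2, e3]
  have e4 : Gr A W x a = gw A W x a * Gr A W x x := Gr_eq_gw' hA hW x a
  rw [e4]
  by_cases h : a = x
  · subst h
    simp only [if_true]
    ring
  · rw [if_neg h, if_neg (Ne.symm h)]
    ring

/-- Ward identity for `Gi`, real form -/
theorem Gi_ward_re (hA : A.IsSymm) {W : ι → ℂ} (hW : ∀ x, (W x).im < 0) (x y : ι) :
    ∑ a, (-(W a).im) * ‖Gi A W x a y‖ ^ 2 = (Gi A W x y y).im := by
  have h := Gi_ward hA hW x y y
  have h2 : ((∑ a, (-(W a).im) * ‖Gi A W x a y‖ ^ 2 : ℝ) : ℂ) = (((Gi A W x y y).im : ℝ) : ℂ) := by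
    rw [← h]
    push_cast
    refine Finset.sum_congr rfl fun a _ => ?_
    rw [Gi_symm hA hW x y a, Complex.mul_conj, Complex.normSq_eq_norm_sq]
    push_cast
    rfl
  exact_mod_cast h2

theorem Gi_im_nonneg (hA : A.IsSymm) {W : ι → ℂ} (hW : ∀ x, (W x).im < 0) (x y : ι) :
    0 ≤ (Gi A W x y y).im := by
  rw [← Gi_ward_re hA hW]
  exact Finset.sum_nonneg fun a _ => mul_nonneg (by linarith [hW a]) (sq_nonneg _)

/-- **upper bound of the flux** -/
theorem Sf_le (hA : A.IsSymm) {W : ι → ℂ} (hW : ∀ x, (W x).im < 0) {Δ : ℝ} (x : ι)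
    (hΔ : ∑ y, |A x y| ≤ Δ) :
    Sf A W x ≤ -(W x).im + Δ * ∑ y, |A x y| * (Gi A W x y y).im := by
  have hΔ0 : 0 ≤ Δ := (Finset.sum_nonneg fun y _ => abs_nonneg _).trans hΔ
  set r : ι → ℂ := fun a => ∑ y, Gi A W x a y * (A x y : ℂ) with hr
  have hr0 : r x = 0 := by
    rw [hr]
    refine Finset.sum_eq_zero fun y _ => ?_
    rw [Gi_left hA hW, zero_mul]
  have hg : ∀ a, ‖gw A W x a‖ ^ 2 = (if a = x then 1 else 0) + ‖r a‖ ^ 2 := by
    intro a
    rw [gw_eq_Gi hA hW x a]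
    by_cases h : a = x
    · subst h
      simp only [if_true]
      have h2 : (∑ y, Gi A W a a y * (A a y : ℂ)) = 0 := hr0
      rw [h2, hr0]
      simp
    · rw [if_neg h, if_neg h, zero_sub, norm_neg, zero_add]
  have h1 : Sf A W x = -(W x).im + ∑ a, (-(W a).im) * ‖r a‖ ^ 2 := by
    rw [Sf]
    have : ∀ a, (-(W a).im) * ‖gw A W x a‖ ^ 2 =
        (if a = x then (-(W a).im) else 0) + (-(W a).im) * ‖r a‖ ^ 2 := by
      intro a
      rw [hg]
      split_ifs <;> ring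
    simp only [this]
    rw [Finset.sum_add_distrib, Finset.sum_ite_eq' Finset.univ x fun a => -(W a).im]
    simp
  rw [h1]
  refine add_le_add le_rfl ?_
  have h2 : ∀ a, ‖r a‖ ^ 2 ≤ Δ * ∑ y, |A x y| * ‖Gi A W x a y‖ ^ 2 := by
    intro a
    have h3 : ‖r a‖ ≤ ∑ y, |A x y| * ‖Gi A W x a y‖ := by
      refine (norm_sum_le _ _).trans (le_of_eq (Finset.sum_congr rfl fun y _ => ?_))
      rw [norm_mul, Complex.norm_real, Real.norm_eq_abs, mul_comm]
    have h4 : (∑ y, |A x y| * ‖Gi A W x a y‖) ^ 2 ≤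
        (∑ y, |A x y|) * ∑ y, |A x y| * ‖Gi A W x a y‖ ^ 2 :=
      Finset.sum_sq_le_sum_mul_sum_of_sq_eq_mul _ (fun y _ => abs_nonneg _)
        (fun y _ => mul_nonneg (abs_nonneg _) (sq_nonneg _)) (fun y _ => by ring)
    calc ‖r a‖ ^ 2 ≤ (∑ y, |A x y| * ‖Gi A W x a y‖) ^ 2 :=
          pow_le_pow_left₀ (norm_nonneg _) h3 2
      _ ≤ _ := h4
      _ ≤ _ := mul_le_mul_of_nonneg_right hΔ (Finset.sum_nonneg fun y _ =>
          mul_nonneg (abs_nonneg _) (sq_nonneg _))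
  calc ∑ a, (-(W a).im) * ‖r a‖ ^ 2
      ≤ ∑ a, (-(W a).im) * (Δ * ∑ y, |A x y| * ‖Gi A W x a y‖ ^ 2) :=
        Finset.sum_le_sum fun a _ => mul_le_mul_of_nonneg_left (h2 a) (by linarith [hW a])
    _ = Δ * ∑ y, |A x y| * ∑ a, (-(W a).im) * ‖Gi A W x a y‖ ^ 2 := by
        simp only [Finset.mul_sum]
        rw [Finset.sum_comm]
        refine Finset.sum_congr rfl fun y _ => Finset.sum_congr rfl fun a _ => ?_
        ring
    _ = _ := by
        simp only [Gi_ward_re hA hW]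

/-- `Im Gi^x_yy` is the imaginary part of a Green function of the graph with `x` disconnected -/
theorem Gi_im_le_mm (hA : A.IsSymm) {W : ι → ℂ} (hW : ∀ x, (W x).im < 0) (x y : ι) :
    (Gi A W x y y).im ≤ mm (Res.dl A x) W y := by
  by_cases h : y = x
  · subst h
    rw [Gi_left hA hW, Complex.zero_im]
    exact (mm_pos (Res.dl_symm hA y) hW y).le
  · rw [mm, Res.Gr_dl hA hW h]

/-- the flux is bounded -/
theorem Sf_le_const (hA : A.IsSymm) {W : ι → ℂ} {b em Δ : ℝ} (hb : 0 < b)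
    (hW : ∀ x, (W x).im ≤ -b) (x : ι) (hem : -(W x).im ≤ em) (hΔ : ∑ y, |A x y| ≤ Δ) :
    Sf A W x ≤ em + Δ * (Δ * (1 / b)) := by
  have hW' : ∀ x, (W x).im < 0 := fun x => by linarith [hW x]
  have hΔ0 : 0 ≤ Δ := (Finset.sum_nonneg fun y _ => abs_nonneg _).trans hΔ
  refine (Sf_le hA hW' x hΔ).trans (add_le_add hem (mul_le_mul_of_nonneg_left ?_ hΔ0))
  calc ∑ y, |A x y| * (Gi A W x y y).im ≤ ∑ y, |A x y| * (1 / b) := by
        refine Finset.sum_le_sum fun y _ => mul_le_mul_of_nonneg_left ?_ (abs_nonneg _)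
        refine (Gi_im_le_mm hA hW' x y).trans ?_
        rw [mm]
        exact (Complex.im_le_norm _).trans (norm_Gr_le (Res.dl_symm hA x) hb hW y y)
    _ = (∑ y, |A x y|) * (1 / b) := by rw [Finset.sum_mul]
    _ ≤ Δ * (1 / b) := mul_le_mul_of_nonneg_right hΔ (by positivity)

/-! ### measurability, integrability -/

theorem measurable_Sf_WV (E : ℝ) (e : ι → ℝ) (x : ι) :
    Measurable fun v : ι → ℝ => Sf A (WV E e v) x := by
  unfold Sf
  refine Finset.measurable_sum _ fun a _ => ?_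
  have h0 : ∀ v : ι → ℝ, (WV E e v a).im = -(e a) := fun v => by rw [WV_eq_Wp, J376.Wp_im]
  simp only [h0]
  exact ((measurable_gw_WV E e x a).norm.pow_const 2).const_mul _

theorem exists_rowBound (A : Matrix ι ι ℝ) (x : ι) : ∃ Δ : ℝ, ∑ y, |A x y| ≤ Δ := ⟨_, le_rfl⟩

/-- `Sf` is bounded by a constant, uniformly in the potential -/
theorem exists_Sf_le (hA : A.IsSymm) (E : ℝ) {e : ι → ℝ} (he : ∀ x, 0 < e x) (x : ι) :
    ∃ C : ℝ, 0 < C ∧ ∀ v, Sf A (WV E e v) x ≤ C := by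
  haveI : Nonempty ι := ⟨x⟩
  obtain ⟨x₀, hx₀⟩ := Finite.exists_min e
  refine ⟨e x + (∑ y, |A x y|) * ((∑ y, |A x y|) * (1 / e x₀)), ?_, fun v => ?_⟩
  · have h1 : 0 ≤ ∑ y, |A x y| := Finset.sum_nonneg fun y _ => abs_nonneg _
    have h2 := he x
    have h3 := he x₀
    positivity
  · refine Sf_le_const hA (he x₀) (fun y => ?_) x ?_ le_rfl
    · rw [WV_eq_Wp, J376.Wp_im]
      linarith [hx₀ y]
    · rw [WV_eq_Wp, J376.Wp_im, neg_neg]

theorem integrable_Sf (hA : A.IsSymm) (m : Measure (ι → ℝ)) [IsFiniteMeasure m] (E : ℝ)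
    {e : ι → ℝ} (he : ∀ x, 0 < e x) (x : ι) :
    Integrable (fun v => Sf A (WV E e v) x) m := by
  obtain ⟨C, hC, h⟩ := exists_Sf_le hA E he x
  refine Integrable.of_bound (measurable_Sf_WV E e x).aestronglyMeasurable C
    (Filter.Eventually.of_forall fun v => ?_)
  rw [Real.norm_eq_abs, abs_of_pos (Sf_pos hA (WV_neg he v) x)]
  exact h v

theorem integrable_log_Sf (hA : A.IsSymm) (m : Measure (ι → ℝ)) [IsFiniteMeasure m] (E : ℝ)
    {e : ι → ℝ} (he : ∀ x, 0 < e x) (x : ι) :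
    Integrable (fun v => Real.log (Sf A (WV E e v) x)) m := by
  obtain ⟨C, hC, h⟩ := exists_Sf_le hA E he x
  refine Integrable.of_bound (measurable_Sf_WV E e x).log.aestronglyMeasurable
    (|Real.log (e x)| + |Real.log C|) (Filter.Eventually.of_forall fun v => ?_)
  have h1 : e x ≤ Sf A (WV E e v) x := by
    have := e_le_Sf hA (WV_neg (E := E) he v) x
    rwa [WV_eq_Wp, J376.Wp_im, neg_neg] at this
  have h2 := Real.log_le_log (he x) h1
  have h3 := Real.log_le_log ((he x).trans_le h1) (h v)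
  rw [Real.norm_eq_abs, abs_le]
  constructor
  · have := neg_abs_le (Real.log (e x))
    have := abs_nonneg (Real.log C)
    linarith
  · have := le_abs_self (Real.log C)
    have := abs_nonneg (Real.log (e x))
    linarith

theorem integrable_sum_log_Sf (hA : A.IsSymm) (m : Measure (ι → ℝ)) [IsFiniteMeasure m] (E : ℝ)
    {e : ι → ℝ} (he : ∀ x, 0 < e x) (T : Finset ι) :
    Integrable (fun v => ∑ x ∈ T, Real.log (Sf A (WV E e v) x)) m :=
  integrable_finset_sum _ fun x _ => integrable_log_Sf hA m E he x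

end Vale.Agent.P365.Z0.H550
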